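import Vale.Agent.P011.H775.Odd.TopNb
import Vale.Agent.P011.Pow.Av
import Vale.Agent.P011.Even.NormCont

/-!
**The neighbourhoods of one of the finite dimensional `k`-algebras in the valuations of a finite
extension `Z` of the number field `k`.**
-/

open Module Topology Filter NumberField IsDedekindDomain

set_option linter.style.haveILetI false
set_option linter.unusedSectionVars false

namespace Vale.Agent.P011.H454.GW

open Vale.Agent.P011.Arith Vale.Agent.P011.Even Vale.Agent.P011.Pow Vale.Agent.P011.One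
  Vale.Agent.P011.H775.Top Vale.Agent.P011.H677.GW

variable {k Z : Type} [Field k] [NumberField k] [Field Z] [NumberField Z] [Algebra k Z]

/-- The places of `Z` above the places of `T`. -/
def abv (T : Finset (Pl k)) (Z : Type) [Field Z] [NumberField Z] [Algebra k Z] :
    Set (HeightOneSpectrum (𝓞 Z)) :=
  {w | ∃ v : HeightOneSpectrum (𝓞 k), (Sum.inl v : Pl k) ∈ T ∧ Ab w v}

theorem abv_finite (T : Finset (Pl k)) : (abv T Z).Finite := by
  have h1 : {v : HeightOneSpectrum (𝓞 k) | (Sum.inl v : Pl k) ∈ T}.Finite :=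
    T.finite_toSet.preimage (Sum.inl_injective.injOn)
  refine (h1.biUnion fun v _ => above_finite (E := Z) v).subset ?_
  rintro V ⟨v, hv, hV⟩
  exact Set.mem_biUnion hv hV

/-- A common lower bound for finitely many nonzero values. -/
theorem exists_le_all {X : Type*} {S : Set X} (hS : S.Finite) (g : X → Z0) (hg : ∀ x ∈ S, g x ≠ 0) :
    ∃ γ : Z0, γ ≠ 0 ∧ γ ≤ 1 ∧ ∀ x ∈ S, γ ≤ g x := by
  classical
  rcases hS.toFinset.eq_empty_or_nonempty with he | hne
  · refine ⟨1, one_ne_zero, le_rfl, fun x hx => ?_⟩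
    have h1 : x ∈ hS.toFinset := by rw [Set.Finite.mem_toFinset]; exact hx
    rw [he] at h1
    exact absurd h1 (Finset.notMem_empty x)
  · obtain ⟨q, hq, hmin⟩ := hS.toFinset.exists_min_image g hne
    rw [Set.Finite.mem_toFinset] at hq
    refine ⟨min (g q) 1, ?_, min_le_right _ _, fun x hx => ?_⟩
    · rcases min_choice (g q) 1 with h | h <;> rw [h]
      · exact hg q hq
      · exact one_ne_zero
    · refine (min_le_left _ _).trans (hmin x ?_)
      rw [Set.Finite.mem_toFinset]
      exact hx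

/-- **The elements of `Z` close to one are close to one at the places above `T`.** -/
theorem eventually_val (T : Finset (Pl k)) [Nonempty T] {γ : Z0} (hγ : γ ≠ 0) :
    letI := topk (av T)
    ∀ᶠ b in nb k Z, ∀ w ∈ abv T Z, w.valuation Z (b - 1) < γ := by
  letI := topk (av T)
  have hfd : FiniteDimensional k Z := Module.Finite.of_restrictScalars_finite ℚ k Z
  rw [Filter.eventually_all_finite (abv_finite T)]
  rintro w ⟨v, hv, hw⟩
  let b := Module.finBasis k Z
  refine (eventually_nb_iff_nm b T).mpr ?_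
  have hrad : ∀ j, ∃ δ : ℝ, 0 < δ ∧ ∀ t : k, plAbv (.inl v) t < δ →
      w.valuation Z (algebraMap k Z t * b j) < γ := by
    intro j
    have hbj : w.valuation Z (b j) ≠ 0 := (Valuation.ne_zero_iff _).mpr (b.ne_zero j)
    obtain ⟨e, he, hval⟩ := val_above hw
    obtain ⟨δ, hδ, h2⟩ := exists_delta v (γ := min (γ / w.valuation Z (b j)) 1) (by
      rcases min_choice (γ / w.valuation Z (b j)) 1 with h | h <;> rw [h]
      · exact div_ne_zero hγ hbj
      · exact one_ne_zero)
    refine ⟨δ, hδ, fun c hc => ?_⟩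
    have h3 := lt_min_iff.mp (h2 c hc)
    have h4 : w.valuation Z (algebraMap k Z c) < γ / w.valuation Z (b j) := by
      rw [hval]
      exact (pow_le_of_le_one zero_le h3.2.le he).trans_lt h3.1
    rw [lt_div_iff₀ (zero_lt_iff.mpr hbj)] at h4
    rwa [map_mul]
  choose r hr hrb using hrad
  obtain ⟨δ, hδ, hle⟩ : ∃ δ : ℝ, 0 < δ ∧ ∀ j, δ ≤ r j := by
    rcases isEmpty_or_nonempty (Fin (finrank k Z)) with he | hne
    · exact ⟨1, one_pos, fun j => (he.false j).elim⟩
    · obtain ⟨j, hj⟩ := Finite.exists_min r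
      exact ⟨r j, hr j, hj⟩
  refine ⟨δ, hδ, fun x hx => ?_⟩
  have h1 : x - 1 = ∑ j, algebraMap k Z (b.repr (x - 1) j) * b j := by
    conv_lhs => rw [← b.sum_repr (x - 1)]
    exact Finset.sum_congr rfl fun j _ => by rw [Algebra.smul_def]
  rw [h1]
  refine Valuation.map_sum_lt _ hγ fun j _ => hrb j _ ?_
  exact (nm_lt_coord b _ (hx _ hv) j).trans_le (hle j)

/-- Elements of small valuation have small absolute value. -/
theorem exists_unit_abv (v : HeightOneSpectrum (𝓞 k)) {ε : ℝ} (hε : 0 < ε) :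
    ∃ c : kˣ, ∀ y : k, v.valuation k y < v.valuation k (c : k) → plAbv (.inl v) y < ε := by
  obtain ⟨π, hπ⟩ := exists_val_lt_one v
  have h1 : ‖algebraMap k (v.adicCompletion k) (π : k)‖ < 1 := by
    rw [norm_lt_one_iff, valued_alg]
    exact hπ
  obtain ⟨n, hn⟩ := exists_pow_lt_of_lt_one hε h1
  refine ⟨π ^ n, fun y hy => ?_⟩
  rw [← norm_algebraMap_eq]
  refine lt_trans ?_ hn
  rw [← norm_pow, ← map_pow, norm_lt_iff, valued_alg, valued_alg]
  exact_mod_cast hy

variable {C : Type} [DivisionRing C] [Algebra Z C] [Algebra k C] [IsScalarTower k Z C]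

/-- **The elements of `C` whose coordinates over `Z` are close to those of one at the places above
`T` are close to one.** -/
theorem exists_gamma {N : ℕ} (β : Basis (Fin N) Z C) (T : Finset (Pl k)) [Nonempty T]
    (hT : ∀ p ∈ T, ∃ v : HeightOneSpectrum (𝓞 k), p = Sum.inl v) {W : Set C}
    (hW : letI := topk (av T); W ∈ nb k C) :
    ∃ γ : Z0, γ ≠ 0 ∧ γ ≤ 1 ∧ ∀ x : C,
      (∀ w ∈ abv T Z, ∀ l, w.valuation Z (β.repr (x - 1) l) < γ) → x ∈ W := by
  letI := topk (av T)
  have hfd : FiniteDimensional k Z := Module.Finite.of_restrictScalars_finite ℚ k Z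
  let b := Module.finBasis k Z
  obtain ⟨ε, hε, h⟩ := (eventually_nb_iff (b.smulTower β) (av T) (P := fun x => x ∈ W)).mp hW
  choose c hc using fun v : HeightOneSpectrum (𝓞 k) => exists_unit_abv v hε
  choose η hη using fun v : HeightOneSpectrum (𝓞 k) => coord_small b v (c v)
  choose bel hbel using fun w : HeightOneSpectrum (𝓞 Z) => exists_below (F := k) w
  obtain ⟨γ, hγ0, hγ1, hγ⟩ := exists_le_all (abv_finite (k := k) (Z := Z) T)
    (fun w => w.valuation Z (algebraMap k Z (η (bel w))))
    (fun w _ => (Valuation.ne_zero_iff _).mpr ((_root_.map_ne_zero _).mpr (Units.ne_zero _)))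
  refine ⟨γ, hγ0, hγ1, fun x hx => h x ?_⟩
  rintro ⟨p, hp⟩ ⟨i, l⟩
  obtain ⟨v, rfl⟩ := hT p hp
  change plAbv (Sum.inl v) _ < ε
  refine hc v _ ?_
  rw [Basis.smulTower_repr]
  refine hη v _ (fun w hw => ?_) i
  have hwT : w ∈ abv T Z := ⟨v, hp, hw⟩
  refine (hx w hwT l).trans_le ?_
  have h1 : bel w = v := Arith.below_unique (hbel w) hw
  have h2 := hγ w hwT
  rw [h1] at h2
  exact h2

end Vale.Agent.P011.H454.GW
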