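import Vale.Agent.P011.H775.Odd.Top
import Vale.Agent.P011.Pow.Kappa
import Vale.Agent.P011.H505.WangB

/-!
**Reduced norms near one: the shift.**  If every element of the centre which is close to one at a
finite set of places (large enough to contain the places where the algebra is not split) is the
reduced norm of an element close to one there, then the same holds for every subset of the set.
Everything is independent of the field.
-/

open Module

set_option linter.unusedSectionVars false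

namespace Vale.Agent.P011.H454.GW

open Vale.Agent.P011.W (HasNrd exists_maxfield)
open Vale.Agent.P011.H775.Top (sz sz_mul sz_lt_iff sz_add_le sz_nonneg)

variable {F D : Type} [Field F] [Infinite F] [DivisionRing D] [Algebra F D]
  [FiniteDimensional F D] [Algebra.IsCentral F D] {d N : ℕ}

theorem exists_nrd (hD : finrank F D = d ^ 2) (x : D) : ∃ ν : F, HasNrd F d x ν := by
  obtain ⟨L, _, _, _, j, u, hL, rfl⟩ := exists_maxfield hD x
  exact ⟨_, H505.Wang.hasNrd_norm hD hL j u⟩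

omit [Infinite F] in
/-- The reduced norm is continuous. -/
theorem nrd_near_at (hD : finrank F D = d ^ 2) (β : Basis (Fin N) F D) (A : AbsoluteValue F ℝ)
    {x₀ : D} {ν₀ : F} (h₀ : HasNrd F d x₀ ν₀) {ε : ℝ} (hε : 0 < ε) :
    ∃ η : ℝ, 0 < η ∧ ∀ x : D, (∀ j, A (β.repr (x - x₀) j) < η) → ∀ ν : F, HasNrd F d x ν →
      A (ν - ν₀) < ε := by
  obtain ⟨g⟩ := Vale.Agent.P011S.exists_split (K := F) (D := D) hD (AlgebraicClosure F)
  obtain ⟨la, hla'⟩ := (Algebra.linearMap F (AlgebraicClosure F)).exists_leftInverse_of_injective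
    (LinearMap.ker_eq_bot.mpr (algebraMap F (AlgebraicClosure F)).injective)
  have hla : ∀ c, la (algebraMap F (AlgebraicClosure F) c) = c := fun c => LinearMap.congr_fun hla' c
  have hG : ∀ x : D, g x = ∑ j, β.repr x j • g (β j) := by
    intro x
    conv_lhs => rw [← β.sum_repr x]
    rw [map_sum]
    exact Finset.sum_congr rfl fun j _ => map_smul _ _ _
  have hc := @Pow.cont_det F (AlgebraicClosure F) A.toNormedField _ _ la d N fun j => g (β j)
  let _ : NormedField F := A.toNormedField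
  obtain ⟨η, hη, h⟩ := (Metric.continuous_iff.mp hc) (fun j => β.repr x₀ j) ε hε
  refine ⟨η, hη, fun x hx ν hν => ?_⟩
  have h1 := h (fun j => β.repr x j) ?_
  · rw [← hG x, ← hG x₀, hν, h₀, hla, hla, dist_eq_norm] at h1
    exact h1
  · rw [dist_pi_lt_iff hη]
    intro j
    rw [dist_eq_norm]
    have h2 := hx j
    rw [map_sub, Finsupp.sub_apply] at h2
    exact h2

/-- **The shift.** -/
theorem ns_shift (hD : finrank F D = d ^ 2) (β : Basis (Fin N) F D) {ι : Type*} [Fintype ι]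
    (a : ι → AbsoluteValue F ℝ) (ha : ∀ i, IsNonarchimedean (a i)) (s : ι → Prop)
    (wa : ∀ (x : ι → F) (ε : ℝ), 0 < ε → ∃ z : F, ∀ i, a i (z - x i) < ε)
    (hloc : ∀ i, ¬ s i → ∀ b : F, b ≠ 0 → ∀ ε : ℝ, 0 < ε →
      ∃ (x : D) (ν : F), HasNrd F d x ν ∧ a i (ν - b) < ε)
    (hns : ∀ ε : ℝ, 0 < ε → ∃ δ : ℝ, 0 < δ ∧ ∀ x : F, x ≠ 0 → (∀ i, a i (x - 1) < δ) →
      ∃ τ : D, HasNrd F d τ x ∧ ∀ i j, a i (β.repr (τ - 1) j) < ε)
    {ε : ℝ} (hε : 0 < ε) : ∃ δ : ℝ, 0 < δ ∧ ∀ b : F, b ≠ 0 → (∀ i, s i → a i (b - 1) < δ) →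
      ∃ τ : D, HasNrd F d τ b ∧ ∀ i, s i → ∀ j, a i (β.repr (τ - 1) j) < ε := by
  classical
  rcases isEmpty_or_nonempty ι with he | hne
  · obtain ⟨δ, hδ, h⟩ := hns ε hε
    refine ⟨δ, hδ, fun b hb _ => ?_⟩
    obtain ⟨τ, h1, h2⟩ := h b hb fun i => (he.false i).elim
    exact ⟨τ, h1, fun i _ => h2 i⟩
  -- the product of two elements close to one
  let a' : {i // s i} → AbsoluteValue F ℝ := fun i => a i.1
  obtain ⟨Cm, hCm, hmul⟩ := sz_mul β a'
  set ε₁ : ℝ := min 1 (ε / (Cm + 3)) with hε₁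
  have hε₁0 : 0 < ε₁ := lt_min one_pos (by positivity)
  have hε₁1 : ε₁ ≤ 1 := min_le_left _ _
  have hε₁2 : ε₁ * (Cm + 3) ≤ ε := (le_div_iff₀ (by positivity)).mp (min_le_right _ _)
  have hprod : ∀ t t' : D, (∀ i, s i → ∀ j, a i (β.repr (t - 1) j) < ε₁) →
      (∀ i, s i → ∀ j, a i (β.repr (t' - 1) j) < ε₁) →
      ∀ i, s i → ∀ j, a i (β.repr (t * t' - 1) j) < ε := by
    intro t t' h h' i hi j
    have e1 : sz β a' (t - 1) < ε₁ := (sz_lt_iff β a' hε₁0).mpr fun i j => h i.1 i.2 j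
    have e2 : sz β a' (t' - 1) < ε₁ := (sz_lt_iff β a' hε₁0).mpr fun i j => h' i.1 i.2 j
    have e3 : t * t' - 1 = (t - 1) * (t' - 1) + ((t - 1) + (t' - 1)) := by noncomm_ring
    have e4 : sz β a' (t * t' - 1) < ε := by
      have f1 := sz_add_le β a' ((t - 1) * (t' - 1)) ((t - 1) + (t' - 1))
      have f2 := sz_add_le β a' (t - 1) (t' - 1)
      have f3 := hmul (t - 1) (t' - 1)
      have f4 := sz_nonneg β a' (t - 1)
      have f5 := sz_nonneg β a' (t' - 1)
      have f6 : Cm * sz β a' (t - 1) * sz β a' (t' - 1) ≤ Cm * ε₁ := by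
        have g1 : sz β a' (t' - 1) ≤ 1 := e2.le.trans hε₁1
        calc Cm * sz β a' (t - 1) * sz β a' (t' - 1) ≤ Cm * sz β a' (t - 1) * 1 :=
              mul_le_mul_of_nonneg_left g1 (by positivity)
          _ ≤ Cm * ε₁ := by
              rw [mul_one]
              exact mul_le_mul_of_nonneg_left e1.le hCm.le
      rw [e3]
      nlinarith
    exact (sz_lt_iff β a' hε).mp e4 ⟨i, hi⟩ j
  obtain ⟨δ₁, hδ₁, hns₁⟩ := hns ε₁ hε₁0
  set m : ℝ := min δ₁ 1 with hm
  have hm0 : 0 < m := lt_min hδ₁ one_pos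
  have hm1 : m ≤ 1 := min_le_right _ _
  refine ⟨m, hm0, fun b hb hbs => ?_⟩
  -- the local data
  let bi : ι → F := fun i => if s i then 1 else b
  have hbi0 : ∀ i, bi i ≠ 0 := by
    intro i
    by_cases hi : s i
    · simp only [bi, if_pos hi]; exact one_ne_zero
    · simp only [bi, if_neg hi]; exact hb
  have hbip : ∀ i, 0 < a i (bi i) := fun i => (a i).pos (hbi0 i)
  have hx : ∀ i, ∃ (x : D) (ν : F), HasNrd F d x ν ∧ a i (ν - bi i) < m * a i (bi i) ∧
      (s i → x = 1) := by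
    intro i
    by_cases hi : s i
    · refine ⟨1, 1, ?_, ?_, fun _ => rfl⟩
      · intro Ω _ _ f
        rw [map_one, map_one, Matrix.det_one]
      · simp only [bi, if_pos hi, sub_self, map_zero, map_one, mul_one]
        exact hm0
    · obtain ⟨x, ν, h1, h2⟩ := hloc i hi b hb (m * a i b) (mul_pos hm0 ((a i).pos hb))
      refine ⟨x, ν, h1, ?_, fun h => absurd h hi⟩
      simp only [bi, if_neg hi]
      exact h2
  choose x ν hxν hνb hx1 using hx
  choose η hη0 hη using fun i => nrd_near_at hD β (a i) (hxν i) (mul_pos hm0 (hbip i))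
  obtain ⟨i₀, hi₀⟩ := Finite.exists_min η
  obtain ⟨r, hr0, hr1, hr2⟩ : ∃ r : ℝ, 0 < r ∧ r ≤ ε₁ ∧ ∀ i, r ≤ η i :=
    ⟨min ε₁ (η i₀), lt_min hε₁0 (hη0 i₀), min_le_left _ _, fun i =>
      (min_le_right _ _).trans (hi₀ i)⟩
  choose z hz using fun l : Fin N => wa (fun i => β.repr (x i) l) r hr0
  set t : D := ∑ l, z l • β l with ht
  have hrep : ∀ l, β.repr t l = z l := by
    intro l
    rw [ht, β.repr_sum_self]
  have hnear : ∀ i j, a i (β.repr (t - x i) j) < r := by
    intro i j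
    rw [map_sub, Finsupp.sub_apply, hrep]
    exact hz j i
  obtain ⟨μ, hμ⟩ := exists_nrd hD t
  have hμ1 : ∀ i, a i (μ - bi i) < m * a i (bi i) := by
    intro i
    have h1 := hη i t (fun j => (hnear i j).trans_le (hr2 i)) μ hμ
    have h2 : μ - bi i = (μ - ν i) + (ν i - bi i) := by ring
    rw [h2]
    exact (ha i _ _).trans_lt (max_lt h1 (hνb i))
  have hμ2 : ∀ i, a i μ = a i (bi i) := by
    intro i
    have h1 : a i (μ - bi i) < a i (bi i) := (hμ1 i).trans_le (by
      have := hbip i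
      nlinarith)
    have h2 : a i μ ≤ a i (bi i) := by
      have h3 := ha i (μ - bi i) (bi i)
      rw [sub_add_cancel] at h3
      exact h3.trans (max_le h1.le le_rfl)
    refine le_antisymm h2 (not_lt.mp fun h3 => ?_)
    have h4 := ha i (bi i - μ) μ
    rw [sub_add_cancel, ← AbsoluteValue.map_neg (a i) (bi i - μ), neg_sub] at h4
    exact absurd (h4.trans_lt (max_lt h1 h3)) (lt_irrefl _)
  obtain ⟨i₁⟩ := hne
  have hμ0 : μ ≠ 0 := by
    rintro rfl
    have h1 := hμ2 i₁
    rw [map_zero] at h1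
    exact absurd h1.symm (hbip i₁).ne'
  have hq : ∀ i, a i (b / μ - 1) < δ₁ := by
    intro i
    have h1 : b / μ - 1 = (b - μ) / μ := by field_simp
    have h2 : a i (b - μ) < m * a i μ := by
      by_cases hi : s i
      · have h3 : bi i = 1 := by simp only [bi, if_pos hi]
        have h4 := hμ1 i
        rw [hμ2 i, h3, map_one, mul_one]
        rw [h3, map_one, mul_one] at h4
        have h5 : b - μ = (b - 1) + (1 - μ) := by ring
        rw [h5]
        refine (ha i _ _).trans_lt (max_lt (hbs i hi) ?_)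
        rw [← AbsoluteValue.map_neg (a i) (1 - μ), neg_sub]
        exact h4
      · have h3 : bi i = b := by simp only [bi, if_neg hi]
        have h4 := hμ1 i
        rw [hμ2 i, h3]
        rw [h3] at h4
        rw [← AbsoluteValue.map_neg (a i) (b - μ), neg_sub]
        exact h4
    rw [h1, map_div₀, div_lt_iff₀ ((a i).pos hμ0)]
    exact h2.trans_le (mul_le_mul_of_nonneg_right (min_le_left _ _) ((a i).nonneg _))
  obtain ⟨τ, hτ1, hτ2⟩ := hns₁ (b / μ) (div_ne_zero hb hμ0) hq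
  refine ⟨t * τ, ?_, ?_⟩
  · have h1 := hμ.mul hτ1
    rwa [mul_div_cancel₀ b hμ0] at h1
  · refine hprod t τ (fun i hi j => ?_) (fun i _ j => hτ2 i j)
    have h1 := hnear i j
    rw [hx1 i hi] at h1
    exact h1.trans_le hr1

end Vale.Agent.P011.H454.GW
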