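import Vale.Agent.P011.H454.GW.Bridge
import Vale.Agent.P011.H454.GW.Shift
import Vale.Agent.P011.H673.NS.InstNF
import Vale.Agent.P011.W.NearNrd

/-!
**Reduced norms near one over number fields**: the property `NSurNear` of the frame of Wang's
theorem near one.
-/

open Module Topology Filter NumberField IsDedekindDomain

set_option linter.style.haveILetI false
set_option linter.unusedSectionVars false

namespace Vale.Agent.P011.H454.GW

open Vale.Agent.P011.Arith (Z0 Pl plAbv)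
open Vale.Agent.P011.Even Vale.Agent.P011.Pow
open Vale.Agent.P011.H775.Top (av topk)
open Vale.Agent.P011.H677.GW (nb NSurNear)
open Vale.Agent.P011.W (HasNrd Spl)

section one

variable {F D : Type} [Field F] [Infinite F] [DivisionRing D] [Algebra F D]
  [FiniteDimensional F D] [Algebra.IsCentral F D] {d : ℕ}

/-- The reduced norm of an element whose minimal polynomial has the maximal degree. -/
theorem hasNrd_coeff (hD : finrank F D = d ^ 2) {x : D} (hx : (minpoly F x).natDegree = d) :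
    HasNrd F d x ((-1) ^ d * (minpoly F x).coeff 0) := by
  obtain ⟨L, _, _, _, j, u, hL, rfl⟩ := W.exists_maxfield hD x
  have h1 := H505.Wang.hasNrd_norm hD hL j u
  have h2 : minpoly F (j u) = minpoly F u := minpoly.algHom_eq j j.injective u
  rw [h2] at hx ⊢
  let b : Basis (Fin d) F L := Module.finBasisOfFinrankEq F L hL
  have h3 : minpoly F u ∣ (Algebra.leftMulMatrix b u).charpoly := by
    refine minpoly.dvd F u ?_
    have h4 := Matrix.aeval_self_charpoly (Algebra.leftMulMatrix b u)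
    rw [Polynomial.aeval_algHom_apply] at h4
    exact (map_eq_zero_iff _ (Algebra.leftMulMatrix_injective b)).mp h4
  have h5 : (Algebra.leftMulMatrix b u).charpoly = minpoly F u := by
    refine Polynomial.eq_of_monic_of_dvd_of_natDegree_le (minpoly.monic (IsIntegral.of_finite F u))
      (Matrix.charpoly_monic _) h3 ?_
    rw [Matrix.charpoly_natDegree_eq_dim, Fintype.card_fin, hx]
  have h6 : Algebra.norm F u = (-1) ^ d * (minpoly F u).coeff 0 := by
    rw [Algebra.norm_eq_matrix_det b u, Matrix.det_eq_sign_charpoly_coeff, Fintype.card_fin, h5]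
  rwa [h6] at h1

end one

section nf

variable {Z C : Type} [Field Z] [NumberField Z] [DivisionRing C] [Algebra Z C]
  [FiniteDimensional Z C] [Algebra.IsCentral Z C] {d : ℕ}

/-- Local surjectivity of the reduced norm. -/
theorem hloc_nf (hC : finrank Z C = d ^ 2) (w : HeightOneSpectrum (𝓞 Z)) {b : Z} (hb : b ≠ 0)
    {ε : ℝ} (hε : 0 < ε) :
    ∃ (x : C) (ν : Z), HasNrd Z d x ν ∧ plAbv (Sum.inl w : Pl Z) (ν - b) < ε := by
  have hd : 0 < d := W.deg_pos hC
  have hb' : 0 < plAbv (Sum.inl w : Pl Z) b := (plAbv (Sum.inl w : Pl Z)).pos hb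
  obtain ⟨c, hc⟩ := exists_unit_abv w (div_pos hε hb')
  obtain ⟨x, hx, hxw⟩ := W.exists_near (F := Z) (D := C) hd hC w (Units.mk0 b hb)
    (w.valuation Z (c : Z)) ((Valuation.ne_zero_iff _).mpr c.ne_zero)
  refine ⟨x, _, hasNrd_coeff hC hx, ?_⟩
  have h1 := hc _ hxw
  rw [Units.val_mk0] at h1
  have h2 : (-1) ^ d * (minpoly Z x).coeff 0 - b =
      ((-1) ^ d * (minpoly Z x).coeff 0 / b - 1) * b := by
    field_simp
  rw [h2, map_mul]
  exact (lt_div_iff₀ hb').mp h1

/-- Weak approximation. -/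
theorem wa_nf (T' : Finset (HeightOneSpectrum (𝓞 Z))) (x : T' → Z) (ε : ℝ) (hε : 0 < ε) :
    ∃ z : Z, ∀ w : T', plAbv (Sum.inl w.1 : Pl Z) (z - x w) < ε := by
  classical
  let x' : HeightOneSpectrum (𝓞 Z) → Z := fun w => if h : w ∈ T' then x ⟨w, h⟩ else 0
  obtain ⟨z, hz⟩ := Arith.approx (F := Z) (Sum.inl '' (T' : Set (HeightOneSpectrum (𝓞 Z))))
    (T'.finite_toSet.image _) (Sum.elim x' fun _ => 0) (fun _ => ε) fun _ => hε
  refine ⟨z, fun w => ?_⟩
  have h1 := hz (Sum.inl w.1) ⟨w.1, w.2, rfl⟩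
  have h2 : x' w.1 = x w := dif_pos w.2
  rw [Sum.elim_inl, h2] at h1
  exact h1

/-- **Reduced norms near one**, at any finite set of finite places. -/
theorem ns_any (hC : finrank Z C = d ^ 2) (hd : Odd d) {N : ℕ} (β : Basis (Fin N) Z C)
    {S : Set (HeightOneSpectrum (𝓞 Z))} (hS : S.Finite) {ε : ℝ} (hε : 0 < ε) :
    ∃ δ : ℝ, 0 < δ ∧ ∀ b : Z, b ≠ 0 → (∀ w ∈ S, plAbv (Sum.inl w : Pl Z) (b - 1) < δ) →
      ∃ τ : C, HasNrd Z d τ b ∧ ∀ w ∈ S, ∀ j, plAbv (Sum.inl w : Pl Z) (β.repr (τ - 1) j) < ε := by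
  classical
  obtain ⟨S₀, hS₀⟩ := H380.Good7.exists_spl_set (F := Z) (B := C) hC
  set T' : Finset (HeightOneSpectrum (𝓞 Z)) := hS.toFinset ∪ S₀ with hT'
  have hT'0 : ∀ w : HeightOneSpectrum (𝓞 Z), w ∉ T' → Spl C d (algebraMap Z (w.adicCompletion Z)) :=
    fun w hw => hS₀ w fun h => hw (Finset.mem_union_right _ h)
  obtain ⟨δ, hδ, h⟩ := ns_shift hC β (fun w : T' => plAbv (Sum.inl w.1 : Pl Z))
    (fun w => H182.isNonarch w.1) (fun w => w.1 ∈ S) (wa_nf T')
    (fun w _ b hb ε hε => hloc_nf hC w.1 hb hε) (fun ε hε => by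
      obtain ⟨δ, hδ, h⟩ := H673.NS.ns_nf_abv hC hd β T' hT'0 hε
      refine ⟨δ, hδ, fun x hx hxT => ?_⟩
      obtain ⟨τ, _, h1, h2⟩ := h x hx fun v hv => hxT ⟨v, hv⟩
      exact ⟨τ, h2, fun w j => h1 w.1 w.2 j⟩) hε
  refine ⟨δ, hδ, fun b hb hbS => ?_⟩
  obtain ⟨τ, h1, h2⟩ := h b hb fun w hw => hbS w.1 hw
  refine ⟨τ, h1, fun w hw j => h2 ⟨w, ?_⟩ hw j⟩
  refine Finset.mem_union_left _ ?_
  rw [Set.Finite.mem_toFinset]
  exact hw

end nf

/-- **Reduced norms near one over number fields.** -/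
theorem nSurNear_nf {k : Type} [Field k] [NumberField k] (T : Finset (Pl k)) [Nonempty T]
    (hT : ∀ p ∈ T, ∃ v : HeightOneSpectrum (𝓞 k), p = Sum.inl v) :
    letI := topk (av T)
    NSurNear k := by
  letI := topk (av T)
  intro Z _ _ _ C _ _ _ _ _ _ d hd hC V hV
  have hZ : NumberField Z := NumberField.of_module_finite k Z
  let β := Module.finBasis Z C
  obtain ⟨γ, hγ0, hγ1, hγ⟩ := exists_gamma β T hT hV
  have hfin := abv_finite (k := k) (Z := Z) T
  -- from the absolute values to the valuations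
  obtain ⟨ε, hε, hεγ⟩ : ∃ ε : ℝ, 0 < ε ∧ ∀ w ∈ abv T Z, ∀ y : Z,
      plAbv (Sum.inl w : Pl Z) y < ε → w.valuation Z y < γ := by
    choose r hr hr2 using fun w : HeightOneSpectrum (𝓞 Z) => exists_delta w hγ0
    rcases hfin.toFinset.eq_empty_or_nonempty with he | hne
    · refine ⟨1, one_pos, fun w hw => ?_⟩
      have h1 : w ∈ hfin.toFinset := by rw [Set.Finite.mem_toFinset]; exact hw
      rw [he] at h1
      exact absurd h1 (Finset.notMem_empty w)
    · obtain ⟨q, _, hmin⟩ := hfin.toFinset.exists_min_image r hne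
      refine ⟨r q, hr q, fun w hw y hy => hr2 w y (hy.trans_le (hmin w ?_))⟩
      rw [Set.Finite.mem_toFinset]
      exact hw
  obtain ⟨δ, hδ, hns⟩ := ns_any hC hd β hfin hε
  choose c hc using fun w : HeightOneSpectrum (𝓞 Z) => exists_unit_abv w hδ
  obtain ⟨γ', hγ'0, hγ'1, hγ'⟩ := exists_le_all hfin (fun w => w.valuation Z (c w : Z))
    (fun w _ => (Valuation.ne_zero_iff _).mpr (c w).ne_zero)
  refine (eventually_val (Z := Z) T hγ'0).mono fun b hb => ?_
  have hb0 : b ≠ 0 := by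
    rintro rfl
    obtain ⟨p, hp⟩ := ‹Nonempty T›
    obtain ⟨v, rfl⟩ := hT p hp
    obtain ⟨w, hw⟩ := Arith.exists_above (E := Z) v
    have h1 := hb w ⟨v, hp, hw⟩
    rw [zero_sub, Valuation.map_neg, map_one] at h1
    exact absurd (h1.trans_le hγ'1) (lt_irrefl _)
  obtain ⟨τ, h1, h2⟩ := hns b hb0 fun w hw => hc w _ ((hb w hw).trans_le (hγ' w hw))
  exact ⟨τ, hγ τ fun w hw l => hεγ w hw _ (h2 w hw l), h1⟩

end Vale.Agent.P011.H454.GW
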